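import Crest.Agent.X262.St91.Nf

/-!
# Row 262, CERT (helper21), part 3: the data and the statements in characteristic `p`

* `Dat`, `Dat.Ok` : integral data and the identities between them;
* `GE E`, `Dat.Good D k` : the emptiness statements over a field `k` (used in characteristic `p`);
* `NcStmt` : absence of conics for a generic member of the family.
-/

set_option autoImplicit false

open MvPolynomial

noncomputable section

namespace Crest.Agent.X262.Cert21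

open Crest.Agent.X262.St91
open Crest.Agent.X262.Pf19 (Om Skew cub NoLine NoConic pf)
open Crest.Agent.X262.Top (SmCub)

section Ring

variable {R : Type} [CommRing R]

/-- a matrix applied to a vector -/
def lm {ι κ : Type} [Fintype κ] (π : ι → κ → R) (x : κ → R) (i : ι) : R := ∑ j, π i j * x j

/-- the action of a matrix on bivectors -/
def l2 (g : Fin 6 → Fin 6 → R) (P : I2 → R) (ij : I2) : R :=
  ∑ k, ∑ l, g ij.1 k * g ij.2 l * P (k, l)

/-- the coefficients of the rational quartic curve -/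
def Ak (k : Fin 5) (ij : I2) : ℤ :=
  if ij.1.val < 3 ∧ 3 ≤ ij.2.val ∧ ij.1.val + ij.2.val = k.val + 3 then 1
  else if ij.2.val < 3 ∧ 3 ≤ ij.1.val ∧ ij.1.val + ij.2.val = k.val + 3 then -1 else 0

/-- the quartic surface -/
def Gam (E : Fin 10 → Fin 4 → R) : MvPolynomial (Fin 4) R := gU (lm (fun s j => C (E s j)) X)

/-- the Pfaffian cubic -/
def cubR (ω : Fin 6 → I2 → R) : MvPolynomial (Fin 6) R := pf fun i j => ∑ a, C (ω a (i, j)) * X a

/-- the Plücker relations -/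
def Plk (P : I2 → R) : Prop :=
  ∀ i j k l, P (i, j) * P (k, l) - P (i, k) * P (j, l) + P (i, l) * P (j, k) = 0

/-- an integral matrix in a ring -/
def cs (R : Type) [CommRing R] {ι κ : Type} (π : ι → κ → ℤ) (i : ι) (j : κ) : R := π i j

end Ring

/-- the integral data -/
structure Dat where
  /-- the change of coordinates -/
  g : Fin 6 → Fin 6 → ℤ
  /-- its inverse -/
  g' : Fin 6 → Fin 6 → ℤ
  /-- the equations of `W₀` -/
  η : Fin 7 → I2 → ℤ
  /-- `ε₀, …, ε₅, w₀` -/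
  e : Fin 7 → I2 → ℤ
  /-- coordinates on `W₀` -/
  α : Fin 8 → I2 → ℤ
  /-- the basis of `W₀` -/
  B : Fin 8 → I2 → ℤ
  /-- two linear forms -/
  l : Fin 2 → I2 → ℤ
  /-- a denominator -/
  c : ℤ
  /-- a determinant -/
  d0 : ℤ
  /-- a determinant -/
  d4 : ℤ
  /-- the first model at `w = 0` -/
  EM : Fin 10 → Fin 4 → ℤ
  /-- the second model at `w = 0` -/
  EN : Fin 10 → Fin 4 → ℤ

/-- the identities -/
structure Dat.Ok (D : Dat) : Prop where
  gg' : ∀ i j, ∑ k, D.g i k * D.g' k j = if i = j then 1 else 0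
  g'g : ∀ i j, ∑ k, D.g' i k * D.g k j = if i = j then 1 else 0
  sη : ∀ a i j, D.η a (j, i) = -D.η a (i, j)
  se : ∀ a i j, D.e a (j, i) = -D.e a (i, j)
  c0 : D.c ≠ 0
  d0 : D.d0 ≠ 0
  d4 : D.d4 ≠ 0
  BA : ∀ (k : Fin 5) i j, D.B (Fin.castAdd 3 k) (i, j) = Ak k (i, j)
  Bg : ∀ (k : Fin 3) i j, D.B (Fin.natAdd 5 k) (i, j) = l2 D.g' (Ak k.succ.castSucc) (i, j)
  a0 : ∀ i j, l2 D.g' (Ak 0) (i, j) = D.d0 * Ak 0 (i, j)
  a4 : ∀ i j, l2 D.g' (Ak 4) (i, j) = D.d4 * Ak 4 (i, j)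
  ηB : ∀ a m, ∑ i, ∑ j, D.η a (i, j) * D.B m (i, j) = 0
  ηe : ∀ a b, ∑ i, ∑ j, D.η a (i, j) * D.e b (i, j) = if a = b then 2 * D.c else 0
  dual : ∀ i j k l, ∑ m, D.α m (k, l) * D.B m (i, j) + ∑ a, D.η a (k, l) * D.e a (i, j) =
    D.c * ((if k = i ∧ l = j then 1 else 0) - if k = j ∧ l = i then 1 else 0)
  EM : ∀ s (k : Fin 3), D.EM s k.castSucc = yz (D.B (Fin.natAdd 5 k)) s
  EM3 : ∀ s, D.EM s 3 = yz (D.e 6) s
  EN : ∀ s (k : Fin 3), D.EN s k.castSucc = yz (l2 D.g (Ak k.succ.castSucc)) s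
  EN3 : ∀ s, D.EN s 3 = yz (l2 D.g (D.e 6)) s

/-- the conditions on a quartic model -/
structure GE {k : Type} [Field k] (E : Fin 10 → Fin 4 → k) : Prop where
  sm : ∀ x : Fin 4 → k, x ≠ 0 → eval x (Gam E) = 0 → ∃ i, eval x (pderiv i (Gam E)) ≠ 0
  q4 : gU (fun s => E s 3) ≠ 0
  nl : ∀ u v : Fin 4 → k, (∀ s t : k, gU (lm E (s • u + t • v)) = 0) → Par u v
  rk2 : ∀ x : Fin 4 → k, x ≠ 0 → nn (lm E x) ≠ 0
  rk3 : ∀ t : Fin 2 → k, t ≠ 0 → x4 (fun j => za (fun s => E s j) t) ≠ 0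

/-- no line through the point `t` of the curve -/
def Tri {k : Type} [Field k] (ω : Fin 6 → I2 → k) (t : Fin 2 → k) (i j : Fin 6) : Prop :=
  ∀ (a b : k) (u : Fin 6 → k), u i = 0 → u j = 0 →
    lm ω (Pf19.wd (a • aU t + b • aV t) u) = 0 → (a = 0 ∧ b = 0) ∨ u = 0

/-- the six forms at `w = 0` -/
def Dat.η0 (D : Dat) (a : Fin 6) : I2 → ℤ := D.η a.castSucc

/-- **the statements which are proved by certificates** -/
structure Dat.Good (D : Dat) (k : Type) [Field k] : Prop where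
  M : GE (cs k D.EM)
  N : GE (cs k D.EN)
  hd : ∃ x : Fin 4 → k, dd (lm (cs k D.EM) x) ≠ 0
  sm : ∀ x : Fin 6 → k, x ≠ 0 → eval x (cubR (cs k D.η0)) = 0 →
    ∃ i, eval x (pderiv i (cubR (cs k D.η0))) ≠ 0
  fin : ∀ y : Fin 8 → k, Plk (fun ij => ∑ m, y m * cs k D.B m ij) →
    lm (cs k D.l) (fun ij => ∑ m, y m * cs k D.B m ij) = 0 → y = 0
  tri0 : ∀ s : k, Tri (cs k D.η0) ![1, s] 0 3
  tri1 : Tri (cs k D.η0) ![0, 1] 2 5

/-- **no conic on the generic member** (helper81) -/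
def NcStmt : Prop := ∀ (η : Fin 7 → I2 → ℤ) (l : Fin 2 → I2 → ℤ) (w : Fin 6 → ℂ),
  AlgebraicIndependent ℚ w → ∀ ω : Om,
  (∀ a i j, ω a i j = η a.castSucc (i, j) - w a * η (Fin.last 6) (i, j)) →
  (∀ a i j, η a (j, i) = -η a (i, j)) → SmCub (cub ω) → NoLine ℂ ω → ∀ G : Geo (omI ω),
  (∀ P : I2 → ℂ, (∀ i j, P (i, j) = -P (j, i)) → ln (omI ω) P = 0 →
    ∑ m, (η (Fin.last 6) m : ℂ) * P m = 0 → ln G.M.π P 3 = 0) → G.b.Y 3 = 0 →
  (∀ P : I2 → ℂ, OnS (omI ω) P → ∑ m, (η (Fin.last 6) m : ℂ) * P m = 0 →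
    (∀ c, ∑ m, (l c m : ℂ) * P m = 0) → False) → NoConic ℂ ω

/-- **the certificates** (helper29) -/
def DataStmt : Prop := ∃ (D : Dat) (p : ℕ), D.Ok ∧ p.Prime ∧
  ∀ (k : Type) [Field k], (p : k) = 0 → D.Good k

end Crest.Agent.X262.Cert21
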