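import Crest.Agent.X262.Cert21.Sm

/-!
# Row 262, CERT (helper21), part 5: the surface of the example contains no line

The `4 × 4` minors of `v ↦ ω (u, v)` have no common zero `u ≠ 0`.
-/

set_option autoImplicit false

open MvPolynomial

namespace Crest.Agent.X262.Cert21

open Crest.Agent.X262.Nc29 (oz om)

noncomputable section

/-- four indices -/
abbrev I4 : Type := Fin 6 × Fin 6 × Fin 6 × Fin 6

/-- four indices as a function -/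
def I4.f (r : I4) : Fin 4 → Fin 6 := ![r.1, r.2.1, r.2.2.1, r.2.2.2]

/-- a minor of order two -/
def m2 {R : Type} [CommRing R] (T : Fin 6 → Fin 6 → R) (a b c d : Fin 6) : R :=
  T a c * T b d - T a d * T b c

/-- a minor of order four -/
def m4 {R : Type} [CommRing R] (T : Fin 6 → Fin 6 → R) (r c : I4) : R :=
  m2 T r.1 r.2.1 c.1 c.2.1 * m2 T r.2.2.1 r.2.2.2 c.2.2.1 c.2.2.2
  - m2 T r.1 r.2.1 c.1 c.2.2.1 * m2 T r.2.2.1 r.2.2.2 c.2.1 c.2.2.2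
  + m2 T r.1 r.2.1 c.1 c.2.2.2 * m2 T r.2.2.1 r.2.2.2 c.2.1 c.2.2.1
  + m2 T r.1 r.2.1 c.2.1 c.2.2.1 * m2 T r.2.2.1 r.2.2.2 c.1 c.2.2.2
  - m2 T r.1 r.2.1 c.2.1 c.2.2.2 * m2 T r.2.2.1 r.2.2.2 c.1 c.2.2.1
  + m2 T r.1 r.2.1 c.2.2.1 c.2.2.2 * m2 T r.2.2.1 r.2.2.2 c.1 c.2.1

theorem map_m4 {R S : Type} [CommRing R] [CommRing S] (f : R →+* S) (T : Fin 6 → Fin 6 → R)
    (r c : I4) : f (m4 T r c) = m4 (fun i j => f (T i j)) r c := by simp [m4, m2]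

theorem det4 {R : Type} [CommRing R] (A : Matrix (Fin 4) (Fin 4) R) : A.det =
    (A 0 0 * A 1 1 - A 0 1 * A 1 0) * (A 2 2 * A 3 3 - A 2 3 * A 3 2)
    - (A 0 0 * A 1 2 - A 0 2 * A 1 0) * (A 2 1 * A 3 3 - A 2 3 * A 3 1)
    + (A 0 0 * A 1 3 - A 0 3 * A 1 0) * (A 2 1 * A 3 2 - A 2 2 * A 3 1)
    + (A 0 1 * A 1 2 - A 0 2 * A 1 1) * (A 2 0 * A 3 3 - A 2 3 * A 3 0)
    - (A 0 1 * A 1 3 - A 0 3 * A 1 1) * (A 2 0 * A 3 2 - A 2 2 * A 3 0)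
    + (A 0 2 * A 1 3 - A 0 3 * A 1 2) * (A 2 0 * A 3 1 - A 2 1 * A 3 0) := by
  rw [Matrix.det_succ_row_zero, Fin.sum_univ_four]
  simp [Matrix.det_fin_three, Fin.succAbove]
  ring

theorem m4_eq {R : Type} [CommRing R] (T : Fin 6 → Fin 6 → R) (r c : I4) :
    m4 T r c = ((Matrix.of T).submatrix r.f c.f).det := by
  rw [det4]
  rfl

theorem m4_eq_zero {K : Type} [Field K] {T : Fin 6 → Fin 6 → K} {u : Fin 3 → Fin 6 → K}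
    (hu : LinearIndependent K u) (h : ∀ l a, ∑ j, T a j * u l j = 0) (r c : I4) : m4 T r c = 0 := by
  by_contra h0
  rw [m4_eq] at h0
  have h1 := Matrix.rank_add_rank_le_card_of_mul_eq_zero (A := Matrix.of T)
    (B := (Matrix.of u).transpose) (Matrix.ext fun a l => h l a)
  have h2 := Matrix.rank_submatrix_le (Matrix.of T) r.f c.f
  rw [Matrix.rank_of_isUnit _ ((Matrix.isUnit_iff_isUnit_det _).2 (Ne.isUnit h0))] at h2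
  rw [Matrix.rank_transpose, LinearIndependent.rank_matrix (M := Matrix.of u) hu] at h1
  simp only [Fintype.card_fin] at h1 h2
  omega

/-- an entry on a chart -/
def tx (i a j : Fin 6) : Ex :=
  .add (.mul (zc 101 (oz a 0 j)) (ch i 0)) (.add (.mul (zc 101 (oz a 1 j)) (ch i 1))
    (.add (.mul (zc 101 (oz a 2 j)) (ch i 2)) (.add (.mul (zc 101 (oz a 3 j)) (ch i 3))
      (.add (.mul (zc 101 (oz a 4 j)) (ch i 4)) (.mul (zc 101 (oz a 5 j)) (ch i 5))))))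

/-- a minor of order two -/
def x2 (T : Fin 6 → Fin 6 → Ex) (a b c d : Fin 6) : Ex :=
  .add (.mul (T a c) (T b d)) (.mul (.c 100) (.mul (T a d) (T b c)))

/-- a minor of order four -/
def xm (T : Fin 6 → Fin 6 → Ex) : I4 × I4 → Ex
  | ((a, b, c, d), (e, f, g, h)) =>
    .add (.mul (x2 T a b e f) (x2 T c d g h)) (.add (.mul (x2 T a b g e) (x2 T c d f h))
      (.add (.mul (x2 T a b e h) (x2 T c d f g)) (.add (.mul (x2 T a b f g) (x2 T c d e h))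
        (.add (.mul (x2 T a b h f) (x2 T c d e g)) (.mul (x2 T a b g h) (x2 T c d e f))))))

theorem ev_xm {k : Type} [CommRing k] (hp : ((101 : ℕ) : k) = 0) (z : ℕ → k)
    (T : Fin 6 → Fin 6 → Ex) (t : I4 × I4) :
    (xm T t).ev z = m4 (fun i j => (T i j).ev z) t.1 t.2 := by
  obtain ⟨⟨a, b, c, d⟩, e, f, g, h⟩ := t
  have h1 : ((100 : ℕ) : k) = -1 := by
    rw [eq_neg_iff_add_eq_zero, ← hp]
    norm_num
  simp only [xm, x2, Ex.ev, h1, m4, m2]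
  ring

/-- the minors which are used -/
def ls : Fin 6 → List (I4 × I4) := ![
  [((0, 2, 3, 5), (1, 2, 3, 5)), ((0, 1, 3, 5), (1, 3, 4, 5)), ((2, 3, 4, 5), (1, 2, 3, 4)),
   ((0, 1, 3, 4), (1, 3, 4, 5)), ((0, 2, 3, 5), (1, 2, 3, 4)), ((1, 2, 3, 5), (1, 2, 3, 5)),
   ((0, 1, 2, 3), (1, 2, 4, 5)), ((0, 1, 2, 3), (2, 3, 4, 5)), ((0, 1, 3, 4), (1, 2, 3, 5)),
   ((1, 2, 4, 5), (2, 3, 4, 5)), ((0, 3, 4, 5), (1, 2, 4, 5)), ((2, 3, 4, 5), (1, 3, 4, 5)),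
   ((0, 1, 3, 5), (1, 2, 4, 5)), ((0, 2, 3, 4), (1, 2, 3, 4)), ((0, 1, 4, 5), (1, 2, 3, 4)),
   ((0, 1, 2, 5), (1, 2, 3, 4)), ((0, 1, 3, 4), (2, 3, 4, 5)), ((1, 3, 4, 5), (1, 2, 3, 4)),
   ((0, 1, 2, 4), (1, 2, 3, 4)), ((0, 1, 2, 3), (1, 3, 4, 5)), ((1, 2, 3, 4), (1, 2, 3, 5))],
  [((0, 2, 3, 5), (0, 2, 3, 5)), ((0, 1, 3, 5), (0, 3, 4, 5)), ((2, 3, 4, 5), (0, 2, 3, 4)),
   ((0, 1, 3, 4), (0, 3, 4, 5)), ((0, 2, 3, 5), (0, 2, 3, 4)), ((1, 2, 3, 5), (0, 2, 3, 5)),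
   ((0, 1, 2, 3), (0, 2, 4, 5)), ((0, 1, 2, 3), (2, 3, 4, 5)), ((0, 1, 3, 4), (0, 2, 3, 5)),
   ((1, 2, 4, 5), (2, 3, 4, 5)), ((0, 3, 4, 5), (0, 2, 4, 5)), ((2, 3, 4, 5), (0, 3, 4, 5)),
   ((0, 1, 3, 5), (0, 2, 4, 5)), ((0, 2, 3, 4), (0, 2, 3, 4)), ((0, 1, 4, 5), (0, 2, 3, 4)),
   ((0, 1, 2, 5), (0, 2, 3, 4)), ((0, 1, 3, 4), (2, 3, 4, 5)), ((1, 3, 4, 5), (0, 2, 3, 4)),
   ((0, 1, 2, 4), (0, 2, 3, 4)), ((0, 1, 2, 3), (0, 3, 4, 5)), ((1, 2, 3, 4), (0, 2, 3, 4)),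
   ((1, 2, 3, 4), (0, 2, 3, 5))],
  [((0, 2, 3, 5), (0, 1, 3, 5)), ((0, 1, 3, 5), (0, 3, 4, 5)), ((2, 3, 4, 5), (0, 1, 3, 4)),
   ((0, 1, 3, 4), (0, 3, 4, 5)), ((0, 2, 3, 5), (0, 1, 3, 4)), ((1, 2, 3, 5), (0, 1, 3, 5)),
   ((0, 1, 2, 3), (0, 1, 4, 5)), ((0, 1, 2, 3), (1, 3, 4, 5)), ((0, 1, 3, 4), (0, 1, 3, 5)),
   ((1, 2, 4, 5), (1, 3, 4, 5)), ((0, 3, 4, 5), (0, 1, 4, 5)), ((2, 3, 4, 5), (0, 3, 4, 5)),
   ((0, 1, 3, 5), (0, 1, 4, 5)), ((0, 2, 3, 4), (0, 1, 3, 4)), ((0, 1, 4, 5), (0, 1, 3, 4)),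
   ((0, 1, 2, 5), (0, 1, 3, 4)), ((0, 1, 3, 4), (1, 3, 4, 5)), ((1, 3, 4, 5), (0, 1, 3, 4)),
   ((0, 1, 2, 4), (0, 1, 3, 4)), ((0, 1, 2, 3), (0, 3, 4, 5))],
  [((0, 2, 3, 5), (0, 1, 2, 5)), ((0, 1, 3, 5), (0, 2, 4, 5)), ((2, 3, 4, 5), (0, 1, 2, 4)),
   ((0, 1, 3, 4), (0, 2, 4, 5)), ((0, 2, 3, 5), (0, 1, 2, 4)), ((1, 2, 3, 5), (0, 1, 2, 5)),
   ((0, 1, 2, 3), (0, 1, 4, 5)), ((0, 1, 2, 3), (1, 2, 4, 5)), ((0, 1, 3, 4), (0, 1, 2, 5)),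
   ((1, 2, 4, 5), (1, 2, 4, 5)), ((0, 3, 4, 5), (0, 1, 4, 5)), ((2, 3, 4, 5), (0, 2, 4, 5)),
   ((0, 1, 3, 5), (0, 1, 4, 5)), ((0, 2, 3, 4), (0, 1, 2, 4)), ((0, 1, 4, 5), (0, 1, 2, 4)),
   ((0, 1, 2, 5), (0, 1, 2, 4)), ((0, 1, 3, 4), (1, 2, 4, 5)), ((1, 3, 4, 5), (0, 1, 2, 4)),
   ((0, 1, 2, 4), (0, 1, 2, 4)), ((0, 1, 2, 3), (0, 2, 4, 5)), ((1, 2, 3, 4), (0, 1, 2, 4)),
   ((1, 2, 3, 4), (0, 1, 2, 5))],
  [((0, 2, 3, 5), (0, 1, 2, 5)), ((0, 1, 3, 5), (0, 2, 3, 5)), ((2, 3, 4, 5), (0, 1, 2, 3)),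
   ((0, 1, 3, 4), (0, 2, 3, 5)), ((0, 2, 3, 5), (0, 1, 2, 3)), ((1, 2, 3, 5), (0, 1, 2, 5)),
   ((0, 1, 2, 3), (0, 1, 3, 5)), ((0, 1, 2, 3), (1, 2, 3, 5)), ((0, 1, 3, 4), (0, 1, 2, 5)),
   ((1, 2, 4, 5), (1, 2, 3, 5)), ((0, 3, 4, 5), (0, 1, 3, 5)), ((2, 3, 4, 5), (0, 2, 3, 5)),
   ((0, 1, 3, 5), (0, 1, 3, 5)), ((0, 2, 3, 4), (0, 1, 2, 3)), ((0, 1, 4, 5), (0, 1, 2, 3)),
   ((0, 1, 2, 5), (0, 1, 2, 3)), ((0, 1, 3, 4), (1, 2, 3, 5)), ((1, 3, 4, 5), (0, 1, 2, 3)),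
   ((0, 1, 2, 4), (0, 1, 2, 3)), ((0, 1, 2, 3), (0, 2, 3, 5)), ((1, 2, 3, 4), (0, 1, 2, 5))],
  [((0, 2, 3, 5), (0, 1, 2, 4)), ((0, 1, 3, 5), (0, 2, 3, 4)), ((2, 3, 4, 5), (0, 1, 2, 3)),
   ((0, 1, 3, 4), (0, 2, 3, 4)), ((0, 2, 3, 5), (0, 1, 2, 3)), ((1, 2, 3, 5), (0, 1, 2, 4)),
   ((0, 1, 2, 3), (0, 1, 3, 4)), ((0, 1, 2, 3), (1, 2, 3, 4)), ((0, 1, 3, 4), (0, 1, 2, 4)),
   ((1, 2, 4, 5), (1, 2, 3, 4)), ((0, 3, 4, 5), (0, 1, 3, 4)), ((2, 3, 4, 5), (0, 2, 3, 4)),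
   ((0, 1, 3, 5), (0, 1, 3, 4)), ((0, 2, 3, 4), (0, 1, 2, 3)), ((0, 1, 4, 5), (0, 1, 2, 3)),
   ((0, 1, 2, 5), (0, 1, 2, 3)), ((0, 1, 3, 4), (1, 2, 3, 4)), ((1, 3, 4, 5), (0, 1, 2, 3)),
   ((0, 1, 2, 4), (0, 1, 2, 3)), ((0, 1, 2, 3), (0, 2, 3, 4)), ((1, 2, 3, 4), (0, 1, 2, 4))]]

/-- the cofactors -/
def lg : Fin 6 → List ℕ := ![
  [0x591382dae2e3f0755622836f5f02d29880c,
   0x234988656513c4e350cd048d1ada3024e5,
   0x26967ce81a777f865ea833d1565457dee4f,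
   0x62065f5b391ec7c8aaf50e8d1517993ccae,
   0xe1dd9f2fd0ba79b9387371c39a0e659f392,
   0xdbac0c74b621f90bdb7d176bfee9ffc9978,
   0xb3e11ea2fbb52a41463f9aaa5a96d6a6377,
   0xa7b78731b4c083a9bb73b6ac570cb940ce5,
   0x415211e2cac7d22833b2ba8a69e7f7eecba,
   0x57ad4a5da055dd1a48b765bce1c46085dd8,
   0xd417ac849d1387d877a7f14f20bacdc194,
   0x1fa5a2cebe9abc6c8a9c340924e7eca953,
   0x4517e421a08834bf19894f32711da778f66,
   0x64471bcb9206f1f40abb65f52067c5d7907,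
   0xc5336ef375622ad4cdb5e6fca90ef369a2,
   0x2d34d3939d1cb2ef0e2cd2be82dcdcdb737,
   0xa05867708be9501c41c10f0ea77b7651bf3,
   0x1920d6bb674cc3db310a8119cb5dc50d82a,
   0x426a065e1b66fdb5280dc42a26f5e8a9d34,
   0xd963e93994ffde8443e6655aaf6bb20ffa0,
   0xd2567753d038b5d],
  [0x36a514faeb1d67a9958c58dbd2a161796f8,
   0x2d7d32c8493cc43a8010e7f71cb1ffa464d,
   0x448b569872ce6fe0fb03bafd358cad5b4b,
   0xa896a894b081ae5992e314c34b932e39694,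
   0xbd9c3fd5e1d98e37a2c72442c9286ebaebb,
   0xab6e091f9325c13b4f07dbc2086d1e1a59b,
   0xd691b7be29772e5fac0ebee7e172d3a8baf,
   0xb12d0525547d5f4f07a8794268f4dfd4a4c,
   0x68f8811ef9bd0621b72cb01a77ea380fe16,
   0xc395dfb9289af7b61f3bc6a9aadd85c2b37,
   0xa3b3e6789ea37816c65cffd1303887076eb,
   0x2b118272d315fcb1414ac2c1c4d0498b7c0,
   0x7e4998714ec2bb78a02c80ee6e5b9219e4f,
   0x957f32503339e233c0982f17fb015c0ed7d,
   0x258a6304b31c63409349be6f4f19e1f1cb7,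
   0xd6c3585a9154cdd21f21eb082f97d5721dc,
   0x9993e23414864b534e590911039c1e1764a,
   0x1dde917d84fd8f60bd65a96a599c9ea821,
   0xcf4c6a209e98ef4f901fa999bcc19db30,
   0x1ae4c8f6af1228a5a425e78ba8dfa573b9c,
   0x14872a1c594f4803cd939aeb00c6a1,
   0x252c0b7e8ac254],
  [0xa0feab9c10d41fa55dc0473f90cc5e06a29,
   0x158057adf162bc9ba94c1f77f90f94dd29e,
   0x6fd2895a05e3f1ffe6240a233a3b1f818a0,
   0xe16bbcd3eff18bc5cbd2073e26630a427cc,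
   0x4f26c5c1c80338f972f5e23634ad4f355b1,
   0x784eca116938f3619aad5fdc63865bc2848,
   0xcf6a90db9a3714fee4b24a4991891e55f19,
   0x32811bea8ef26f864adacf8bf68a601d942,
   0x7768f2931ac8af3f31eb92270c2a0b98b2a,
   0xdbdbb3dcc0a4bbaeade2c313818bcd399f,
   0x4af97b4e3e5bc67194616226f96dabd001f,
   0x5a21becba07926b571424579224442c19f0,
   0x2446f1f00dd4f96a61003c02a633038d347,
   0x75ecff30fa2726ecbba7b917354ea421ed5,
   0x9cb42c086321d53f22267343797cf4c04c0,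
   0x3fde5d2e4495ecf3148b529fa3a2da25414,
   0x158c388d127037c2b0d81f42110081abb2c,
   0x807ed5d9e157267c8f3b51e452b92d4076f,
   0xc73e67447bc55a81af17e3d29aa7d8a99,
   0x4b09bc964a8c5242bbf3ab],
  [0x39bf2d19b85b538275dfcf13da1288d585c,
   0xde132c7b928f40b32ccaaae2ba130a28650,
   0x13a5f0e83db1fbb27d5d3f7a331c83129f,
   0x2c3b87f0a785c839fe2b2aa27eceeae0cdf,
   0x12662468adbaa59cec618fde2e07cae388,
   0x5902434f82bf2764eb89c741e9541f20b7,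
   0x34731e1ff6637a729740fd46bbfa1ec6f96,
   0x75a841939603bb6433cb52f617c7891935a,
   0xc963f552251db426f36932141fd606dc04a,
   0x8bda6c4e6a1078cfc84640fe5b6e12a2d91,
   0x16c0ed6393cbef23f046ec944229b2454,
   0xc2ffd49e14c067f5b96fc347e9298279247,
   0x1825073a0a88d9358c7864f6f1e7729a81,
   0x9864549f4702eb76237be4c764e0ec272ca,
   0xb5ee7a9dc33ded9e575f2b32a052c794e40,
   0x7742582f94eb4da093cf5094adb34c21746,
   0xd59deba0e778f6cb16d16a7eaabe25685a3,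
   0x21bace9abe1d64a660f207618dcfc712d5,
   0x22e0226fe91496d1d61b82e4de4828,
   0x5c46d578e39fef84c19c33,
   0x1617969784a672,
   0x10d9fb4e78],
  [0x20dce59a86c3164f49649253edbd26767bf,
   0xcae7d656377d26ee04158554563f1f10fae,
   0x21399eb11ad8231abbbd04598b93956bc0,
   0xe0433bac3a30687a8cd9e9e81c89ba4dff1,
   0xdc8635c8ff07753b87afef638d327eb93,
   0x23a038fde963bfc4826a4f758bdda45b336,
   0x789dbfe10d0183e9c5415388bdbd31e1a9c,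
   0x75c82ddc935455eb552edcc248fb5203449,
   0x31495827602a00a9a9c23dbec0c5f736054,
   0x27865ec39297a8cd44e83e0cd8f32e766d7,
   0x110ad8ab994b5629752c15e5bf2dac05f6,
   0x74d4e687e21ea4847bfc20205d600de3928,
   0xeea2a5858633ad5aca60e80e6a254c84d,
   0x58fde40314a8d7d37753fe71b7af62e67c7,
   0xa1b16ee266a7f578f57cfe8c0c19b7fc0ed,
   0x593a0486c5c056335db0b138e0675977bd,
   0x603028ca26691bd4e98c71d9b65645a82f5,
   0x176eb99138d02f0284e9fce7730c8f50a5,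
   0x4944518e1e56879e8a78d0bc2f7bab87,
   0x23bb6557,
   0x8ff],
  [0x2fb4bf966fad056a8c400975d6284f23113,
   0x4b6ddb61a9cd484c17e2d291d8533833106,
   0x6553ff2bc28f5421df7462fd0cd99a8301,
   0x7a9bd248d0e33742d4a2356545d9c93595,
   0xaf77916ad782640b951059cb92e8d9350d7,
   0x595364873b12ce9b9d64740f96b7aa99332,
   0xb374df03e68e45263afc0282166f94e231c,
   0xbe80dbc06230e94db2ef7ad2239f2b82608,
   0x60ed4ea669663f767dcfd6be2109e522ae7,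
   0xe19f3125a8e70a88130b3ae1d11374b109b,
   0x3cc3e184a73ef167372cc2d9f26002d65ab,
   0x74ad4fd4a4403dfe151b7893365ffbc6ca8,
   0xe023a66366296a7c89054f309531d88dfdd,
   0x34f173d346680624ab915c66f50e8be53a2,
   0xd415b8d296373ab11373127953870d32a7b,
   0xd815833bf59ede8425964b51724ed0995dd,
   0xd2cc24bb83fb4e3c246bbd6eba7e24599f4,
   0xdfb4d6444d530ad3c66567cdd5cf1c12fb5,
   0xc77835d932a98039abfc69638d9d47ac036,
   0xb8e13e,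
   0x4d94eeb]]

theorem certL : ∀ i : Fin 6, NZ 101 5 2 7 80 15 (List.map (xm (tx i)) (ls i)) (lg i) = true := by
  decide +kernel

/-- the matrix of linear forms -/
def Tz (a j : Fin 6) : MvPolynomial (Fin 6) ℤ := ∑ i : Fin 6, C (oz a i j) * X i

theorem eval_Tz {k : Type} [CommRing k] (z : Fin 6 → k) (t : I4 × I4) :
    eval z (map (Int.castRingHom k) (m4 Tz t.1 t.2)) =
      m4 (fun a j => ∑ i : Fin 6, ((oz a i j : ℤ) : k) * z i) t.1 t.2 := by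
  rw [map_m4, map_m4]
  simp [Tz]

theorem hom_m4 (r c : I4) : (m4 Tz r c).IsHomogeneous 4 := by
  have h : ∀ a j, (Tz a j).IsHomogeneous 1 :=
    fun i j => IsHomogeneous.sum _ _ _ fun a _ => (isHomogeneous_X ℤ a).C_mul _
  have h2 : ∀ a b c d, (m2 Tz a b c d).IsHomogeneous 2 := fun a b c d =>
    ((h _ _).mul (h _ _)).sub ((h _ _).mul (h _ _))
  exact ((((((h2 ..).mul (h2 ..)).sub ((h2 ..).mul (h2 ..))).add ((h2 ..).mul (h2 ..))).add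
    ((h2 ..).mul (h2 ..))).sub ((h2 ..).mul (h2 ..))).add ((h2 ..).mul (h2 ..))

/-- **the surface of the example contains no line** -/
theorem noLine : Pf19.NoLine ℂ om := fun u h1 h2 hu => by
  refine hu.ne_zero 0 (nz_int (p := 101) (by norm_num) (fun t : I4 × I4 => m4 Tz t.1 t.2)
    (fun t => ⟨_, hom_m4 _ _⟩) (fun k _ hp i z hi hz => ?_) (u 0) fun t => ?_)
  · refine NZ.false (certL i) hp (fun j => if h : j < 5 then z (i.succAbove ⟨j, h⟩) else 0)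
      fun a ha => ?_
    obtain ⟨t, -, rfl⟩ := List.mem_map.1 ha
    refine (ev_xm hp _ _ _).trans (Eq.trans ?_ ((eval_Tz z t).symm.trans (hz t)))
    congr 1
    funext a j
    simp only [tx, Ex.ev, ev_zc (by norm_num) hp, ev_ch z i hi, Fin.sum_univ_six, add_assoc]
    simp [xe]
  · rw [eval_Tz]
    refine m4_eq_zero hu (fun l a => ?_) _ _
    have h3 : Pf19.w om (u 0) (u l) = 0 := by
      fin_cases l
      exacts [Nc29.skew.self _, h1, h2]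
    rw [← (show _ = (0 : ℂ) from congrFun h3 a), Pf19.w_apply, Finset.sum_comm]
    simp only [Finset.sum_mul, om, smul_eq_mul, mul_assoc]

end

end Crest.Agent.X262.Cert21
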