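import Mathlib

/-!
# Row 262, CERT (helper21), part 2: a place of `ℂ` with `p ↦ 0`, `w ↦ 0`

* `exists_indep` : algebraically independent complex numbers;
* `Pl p w`, `exists_pl` : the place; `Pl.nrm` : normalisation of a vector;
* `Pl.nz` : absence of common zeros of forms lifts from the residue field to `ℂ`.
-/

set_option autoImplicit false

open MvPolynomial IsLocalRing

namespace Crest.Agent.X262.Cert21

noncomputable section

theorem exists_indep (n : ℕ) : ∃ w : Fin n → ℂ, AlgebraicIndependent ℚ w := by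
  obtain ⟨s, hs⟩ := exists_isTranscendenceBasis ℚ ℂ
  have h1 := IsAlgClosed.cardinal_eq_cardinal_transcendence_basis_of_aleph0_lt' _ hs
    (by simp) (by rw [Cardinal.mk_complex]; exact Cardinal.aleph0_lt_continuum)
  have : Infinite s := Cardinal.infinite_iff.2 (by
    rw [← h1, Cardinal.mk_complex]; exact Cardinal.aleph0_le_continuum)
  exact ⟨_, hs.1.comp (fun i : Fin n => Infinite.natEmbedding s i)
    ((Infinite.natEmbedding s).injective.comp Fin.val_injective)⟩

/-- a place of `ℂ` which kills `p` and the `w a` -/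
structure Pl (p : ℕ) {n : ℕ} (w : Fin n → ℂ) where
  /-- the valuation ring -/
  V : ValuationSubring ℂ
  hp : (p : ResidueField V) = 0
  /-- the parameters -/
  u : Fin n → V
  hu : ∀ a, (u a : ℂ) = w a
  u0 : ∀ a, residue V (u a) = 0

theorem exists_pl {p : ℕ} (hp : p.Prime) {n : ℕ} {w : Fin n → ℂ} (hw : AlgebraicIndependent ℚ w) :
    Nonempty (Pl p w) := by
  have := Fact.mk hp
  have hz : AlgebraicIndependent ℤ w := hw.restrictScalars (algebraMap ℤ ℚ).injective_int
  set φ : MvPolynomial (Fin n) ℤ →+* ℂ := (aeval w : MvPolynomial (Fin n) ℤ →ₐ[ℤ] ℂ).toRingHom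
  set e : MvPolynomial (Fin n) ℤ ≃+* φ.range :=
    RingEquiv.ofBijective φ.rangeRestrict ⟨fun a b h => hz (congrArg Subtype.val h),
      φ.rangeRestrict_surjective⟩ with he
  set χ : φ.range →+* ZMod p :=
    (eval₂Hom (Int.castRingHom (ZMod p)) fun _ => 0).comp e.symm.toRingHom with hχ
  obtain ⟨V, h1, h2⟩ := Ideal.image_subset_nonunits_valuationSubring (RingHom.ker χ)
    (RingHom.ker_ne_top χ)
  have key : ∀ x : MvPolynomial (Fin n) ℤ,
      eval₂Hom (Int.castRingHom (ZMod p)) (fun _ => 0) x = 0 →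
      residue V ⟨φ x, h1 ⟨x, rfl⟩⟩ = 0 := fun x hx => by
    rw [residue_eq_zero_iff, ← ValuationSubring.coe_mem_nonunits_iff]
    exact h2 ⟨e x, by rw [SetLike.mem_coe, RingHom.mem_ker, hχ]; simpa using hx, rfl⟩
  refine ⟨⟨V, ?_, fun a => ⟨φ (X a), h1 ⟨_, rfl⟩⟩, fun a => aeval_X w a,
    fun a => key _ (by simp)⟩⟩
  have h3 := key p (by simp)
  rw [← map_natCast (residue V), ← h3]
  congr 1
  ext
  simp

theorem exists_nrm (V : ValuationSubring ℂ) {ι : Type} [Finite ι] {z : ι → ℂ} (hz : z ≠ 0) :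
    ∃ (i : ι) (y : ι → V), z i ≠ 0 ∧ y i = 1 ∧ ∀ j, (y j : ℂ) = (z i)⁻¹ * z j := by
  obtain ⟨j, hj⟩ := Function.ne_iff.1 hz
  have : Nonempty ι := ⟨j⟩
  obtain ⟨i, hi⟩ := Finite.exists_max fun j => V.valuation (z j)
  have h0 : 0 < V.valuation (z i) := (zero_lt_iff.2 ((map_ne_zero _).2 hj)).trans_le (hi j)
  have h1 : z i ≠ 0 := (map_ne_zero _).1 h0.ne'
  refine ⟨i, fun j => ⟨(z i)⁻¹ * z j, ?_⟩, h1, Subtype.ext (inv_mul_cancel₀ h1), fun _ => rfl⟩
  rw [← V.valuation_le_one_iff, map_mul, map_inv₀, inv_mul_le_one₀ h0]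
  exact hi j

theorem eval_mul_hom {R σ : Type*} [CommRing R] {r : MvPolynomial σ R} {d : ℕ}
    (hr : r.IsHomogeneous d) (t : R) (z : σ → R) :
    eval (fun s => t * z s) r = t ^ d * eval z r := by
  rw [eval_eq, eval_eq, Finset.mul_sum]
  refine Finset.sum_congr rfl fun m hm => ?_
  rw [← hr (mem_support_iff.1 hm), Finsupp.weight_apply, Finsupp.sum, ← Finset.prod_pow_eq_pow_sum,
    mul_left_comm, ← Finset.prod_mul_distrib]
  congr 1
  exact Finset.prod_congr rfl fun s _ => by rw [mul_pow, Pi.one_apply, smul_eq_mul, mul_one]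

theorem eval_res (V : ValuationSubring ℂ) {σ : Type} (F : MvPolynomial σ V) (y : σ → V)
    (h : eval (fun j => (y j : ℂ)) (map V.subtype F) = 0) :
    eval (fun j => residue V (y j)) (map (residue V) F) = 0 := by
  have h1 : eval y F = 0 := Subtype.ext (by
    rw [eval_map] at h
    exact (eval₂_comp_left V.subtype (RingHom.id V) y F).trans h)
  rw [eval_map]
  exact (eval₂_comp_left (residue V) (RingHom.id V) y F).symm.trans
    ((congrArg (residue V) h1).trans (map_zero _))

/-- **forms without common zero** -/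
theorem nz_lift (V : ValuationSubring ℂ) {σ ι : Type} [Finite σ] (F : ι → MvPolynomial σ V)
    (hF : ∀ r, ∃ d, (F r).IsHomogeneous d)
    (h : ∀ (i : σ) (z : σ → ResidueField V), z i = 1 →
      (∀ r, eval z (map (residue V) (F r)) = 0) → False)
    (z : σ → ℂ) (hz : ∀ r, eval z (map V.subtype (F r)) = 0) : z = 0 := by
  by_contra hne
  obtain ⟨i, y, -, h1, h2⟩ := exists_nrm V hne
  refine h i (fun j => residue V (y j)) (by simp [h1]) fun r => eval_res V _ y ?_
  obtain ⟨d, hd⟩ := hF r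
  rw [funext h2, eval_mul_hom (hd.map _), hz, mul_zero]

end

end Crest.Agent.X262.Cert21
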